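import Vale.Agent.Results.P141.A_unbounded_region
import Vale.Agent.Results.P141.B_digit_criterion

namespace Vale.Agent.Results.P141.AAA_union

open Vale.Agent.Lib.P141

/-- The explicit region of unboundedness and the digit criterion. -/
theorem result :
    ((∀ p₁ p₂ p₃ r : ℝ, 1 < p₁ → 1 < p₂ → 1 < p₃ → 1 / r = 1 / p₁ + 1 / p₂ + 1 / p₃ → r ≤ 7 / 16 →
      ¬ BoundedAt (ENNReal.ofReal p₁) (ENNReal.ofReal p₂) (ENNReal.ofReal p₃) (ENNReal.ofReal r)) ∧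
    (∀ p₃ : ℝ, 1 < p₃ → ∃ ε > 0, ∀ p₁ p₂ r : ℝ,
      1 < p₁ → p₁ < 1 + ε → 1 < p₂ → p₂ < 1 + ε → 1 / r = 1 / p₁ + 1 / p₂ + 1 / p₃ →
      ¬ BoundedAt (ENNReal.ofReal p₁) (ENNReal.ofReal p₂) (ENNReal.ofReal p₃) (ENNReal.ofReal r)) ∧
    (∀ p₂ : ℝ, 1 < p₂ → ∃ ε > 0, ∀ p₁ p₃ r : ℝ,
      1 < p₁ → p₁ < 1 + ε → 1 < p₃ → p₃ < 1 + ε → 1 / r = 1 / p₁ + 1 / p₂ + 1 / p₃ →
      ¬ BoundedAt (ENNReal.ofReal p₁) (ENNReal.ofReal p₂) (ENNReal.ofReal p₃) (ENNReal.ofReal r)) ∧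
    (∀ p₁ : ℝ, 1 < p₁ → ∃ ε > 0, ∀ p₂ p₃ r : ℝ,
      1 < p₂ → p₂ < 1 + ε → 1 < p₃ → p₃ < 1 + ε → 1 / r = 1 / p₁ + 1 / p₂ + 1 / p₃ →
      ¬ BoundedAt (ENNReal.ofReal p₁) (ENNReal.ofReal p₂) (ENNReal.ofReal p₃) (ENNReal.ofReal r))) ∧
    (∀ (G : Finset (ℤ × ℤ)) (b : ℕ), 2 ≤ b →
      (∀ q ∈ G, ∀ q' ∈ G, (b : ℤ) ∣ q.1 - q'.1 → q = q') →
      ∀ (p₁ p₂ p₃ r : ℝ), 1 < p₁ → 1 < p₂ → 1 < p₃ →
      1 / r = 1 / p₁ + 1 / p₂ + 1 / p₃ →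
      (b : ℝ) * ((G.image (fun q => q.1 - q.2)).card : ℝ) ^ (1 / p₁) *
        ((G.image (fun q => q.1 - 2 * q.2)).card : ℝ) ^ (1 / p₂) *
        ((G.image (fun q => q.1 - 3 * q.2)).card : ℝ) ^ (1 / p₃) < (G.card : ℝ) ^ (1 / r) →
      ¬ BoundedAt (ENNReal.ofReal p₁) (ENNReal.ofReal p₂) (ENNReal.ofReal p₃) (ENNReal.ofReal r)) :=
  ⟨Vale.Agent.Results.P141.A_unbounded_region.result,
    fun G b hb hinj p₁ p₂ p₃ r h1 h2 h3 hr hcrit =>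
      Vale.Agent.Results.P141.B_digit_criterion.result G b hb hinj p₁ p₂ p₃ r h1 h2 h3 hr hcrit⟩

end Vale.Agent.Results.P141.AAA_union
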